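import Vale.Agent.P343.H741.Iface
import Mathlib.Data.Set.Card.Arithmetic

/-!
Row S: one level of the recursion, from the facts on recurrent states, the counting of lost
classes and the toggles.
-/

namespace Vale.Agent.P343.H950

open Vale.Agent.P343.H741
open Vale.Agent.P343.Box (Sym Ext idSym edgeN rep bits expand isT acts addE trkW trkP cellP RLang)

variable {Q : Type}

/-! ### Words -/

/-- The box of a word. -/
def wd {P : Type} (g : P → NB Q) (w : List P) : NB Q := (w.map g).prod

theorem wd_append {P : Type} (g : P → NB Q) (w w' : List P) :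
    wd g (w ++ w') = wd g w * wd g w' := by
  unfold wd
  rw [List.map_append, List.prod_append]

theorem wd_nil {P : Type} (g : P → NB Q) : wd g ([] : List P) = 1 := rfl

theorem wd_singleton {P : Type} (g : P → NB Q) (a : P) : wd g [a] = g a := by
  unfold wd
  rw [List.map_singleton, List.prod_singleton]

theorem wd_rep {P : Type} (g : P → NB Q) (w : List P) (k : ℕ) :
    wd g (rep w k) = wd g w ^ k := by
  induction k with
  | zero => rw [pow_zero]; rfl
  | succ k ih =>
    show wd g (w ++ rep w k) = _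
    rw [wd_append, ih, pow_succ']

theorem wd_flatMap {P R : Type} (g : P → NB Q) (L : List R) (t : R → List P) :
    wd g (L.flatMap t) = (L.map (fun s => wd g (t s))).prod := by
  induction L with
  | nil => rfl
  | cons s L ih => rw [List.flatMap_cons, wd_append, ih, List.map_cons, List.prod_cons]

/-- `s` is local at `e`. -/
def Lc (e s : NB Q) : Prop := e * s = s ∧ s * e = s

theorem Lc.mul {e s t : NB Q} (hs : Lc e s) (ht : Lc e t) : Lc e (s * t) :=
  ⟨by rw [← mul_assoc, hs.1], by rw [mul_assoc, ht.2]⟩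

theorem Lc.pow {e s : NB Q} (hs : Lc e s) (k : ℕ) : Lc e (s ^ (k + 1)) := by
  induction k with
  | zero => rw [zero_add, pow_one]; exact hs
  | succ k ih => rw [pow_succ]; exact ih.mul hs

section

variable [Finite Q]

/-- An exponent that makes a box idempotent. -/
noncomputable def ie (x : NB Q) : ℕ := Classical.choose (exists_pow_idem x)

theorem ie_pos (x : NB Q) : 0 < ie x := (Classical.choose_spec (exists_pow_idem x)).1

theorem ie_idem (x : NB Q) : x ^ ie x * x ^ ie x = x ^ ie x :=
  (Classical.choose_spec (exists_pow_idem x)).2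

variable {V : Type} {n : ℕ}

/-- The chain of words. -/
noncomputable def chn (g : Sym (Ext V n) → NB Q) : ℕ → List (Sym (Ext V n))
  | 0 => [idSym (Ext V n)]
  | c + 1 => rep (chn g c ++ [edgeN V n c] ++ chn g c)
      (ie (wd g (chn g c ++ [edgeN V n c] ++ chn g c)))

theorem chn_zero (g : Sym (Ext V n) → NB Q) : chn g 0 = [idSym (Ext V n)] := rfl

theorem chn_succ (g : Sym (Ext V n) → NB Q) (c : ℕ) :
    chn g (c + 1) = rep (chn g c ++ [edgeN V n c] ++ chn g c)
      (ie (wd g (chn g c ++ [edgeN V n c] ++ chn g c))) := rfl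

theorem chn_idem {g : Sym (Ext V n) → NB Q}
    (hid : g (idSym (Ext V n)) * g (idSym (Ext V n)) = g (idSym (Ext V n))) (c : ℕ) :
    wd g (chn g c) * wd g (chn g c) = wd g (chn g c) := by
  cases c with
  | zero => rw [chn_zero, wd_singleton]; exact hid
  | succ c =>
    rw [chn_succ, wd_rep]
    exact ie_idem _

theorem chn_left {g : Sym (Ext V n) → NB Q}
    (hid : g (idSym (Ext V n)) * g (idSym (Ext V n)) = g (idSym (Ext V n))) (c : ℕ) :
    wd g (chn g c) * wd g (chn g (c + 1)) = wd g (chn g (c + 1)) := by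
  rw [chn_succ, wd_rep]
  have hk := ie_pos (wd g (chn g c ++ [edgeN V n c] ++ chn g c))
  obtain ⟨k, hk'⟩ := Nat.exists_eq_succ_of_ne_zero (Nat.pos_iff_ne_zero.1 hk)
  rw [hk', pow_succ', wd_append, wd_append]
  simp only [← mul_assoc]
  rw [chn_idem hid]

theorem chn_right {g : Sym (Ext V n) → NB Q}
    (hid : g (idSym (Ext V n)) * g (idSym (Ext V n)) = g (idSym (Ext V n))) (c : ℕ) :
    wd g (chn g (c + 1)) * wd g (chn g c) = wd g (chn g (c + 1)) := by
  rw [chn_succ, wd_rep]
  have hk := ie_pos (wd g (chn g c ++ [edgeN V n c] ++ chn g c))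
  obtain ⟨k, hk'⟩ := Nat.exists_eq_succ_of_ne_zero (Nat.pos_iff_ne_zero.1 hk)
  rw [hk', pow_succ, wd_append, wd_append]
  simp only [mul_assoc]
  rw [chn_idem hid]

theorem chn_loc {g : Sym (Ext V n) → NB Q} (hloc : ∀ s, Lc (g (idSym (Ext V n))) (g s)) (c : ℕ) :
    Lc (g (idSym (Ext V n))) (wd g (chn g c)) := by
  induction c with
  | zero => rw [chn_zero, wd_singleton]; exact hloc _
  | succ c ih =>
    rw [chn_succ, wd_rep]
    have hk := ie_pos (wd g (chn g c ++ [edgeN V n c] ++ chn g c))
    obtain ⟨k, hk'⟩ := Nat.exists_eq_succ_of_ne_zero (Nat.pos_iff_ne_zero.1 hk)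
    rw [hk']
    refine Lc.pow ?_ k
    rw [wd_append, wd_append, wd_singleton]
    exact (ih.mul (hloc _)).mul ih

theorem acts_chn (g : Sym (Ext V n) → NB Q) (hn : 0 < n) (c : ℕ) (S : Set (Ext V n)) :
    acts (chn g c) S = addE (fun i j => i.val * n + j.val < c) S := by
  induction c generalizing S with
  | zero =>
    rw [chn_zero, Box.acts_cons, Box.acts_nil]
    ext y
    rw [Box.mem_act]
    simp [addE, idSym]
  | succ c ih =>
    rw [chn_succ]
    apply Box.acts_rep _ _ (ie_pos _)
    intro S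
    rw [Box.acts_append, Box.acts_append, ih, ih, Box.acts_cons, Box.acts_nil, Box.act_edgeN,
      Box.addE_addE, Box.addE_addE]
    apply Box.addE_congr
    intro i j
    have h1 : (i.val = c / n ∧ j.val = c % n) ↔ i.val * n + j.val = c := by
      constructor
      · rintro ⟨h1, h2⟩
        rw [h1, h2]
        have := Nat.div_add_mod c n
        rw [Nat.mul_comm] at this
        exact this
      · intro h
        have hj := j.2
        constructor
        · rw [← h, Nat.add_comm, Nat.add_mul_div_right _ _ hn, Nat.div_eq_of_lt hj, Nat.zero_add]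
        · rw [← h, Nat.add_comm, Nat.add_mul_mod_self_right, Nat.mod_eq_of_lt hj]
    rw [h1]
    omega

/-- Passive states survive along the chain. -/
theorem pass_chn (hP : PtsFacts Q) {g : Sym (Ext V n) → NB Q}
    (hid : g (idSym (Ext V n)) * g (idSym (Ext V n)) = g (idSym (Ext V n)))
    (hloc : ∀ s, Lc (g (idSym (Ext V n))) (g s)) {d : Bool} {y : Q}
    (hy : Pt (g (idSym (Ext V n))) d y) (m : ℕ)
    (he : ∀ c, c < m → X (g (idSym (Ext V n))) (g (edgeN V n c)) d y y) (c : ℕ) (hc : c ≤ m) :
    X (g (idSym (Ext V n))) (wd g (chn g c)) d y y := by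
  set e := g (idSym (Ext V n)) with hedef
  have hcomp : ∀ {s t : NB Q}, Lc e s → Lc e t → X e s d y y → X e t d y y →
      X e (s * t) d y y := fun hs ht h1 h2 =>
    hP.comp hid hs.1 hs.2 ht.1 ht.2 h1 h2
  have hpow : ∀ {s : NB Q}, Lc e s → X e s d y y → ∀ k, X e (s ^ (k + 1)) d y y := by
    intro s hs h k
    induction k with
    | zero => rw [zero_add, pow_one]; exact h
    | succ k ih =>
      rw [pow_succ]
      exact hcomp (hs.pow k) hs ih h
  induction c with
  | zero => rw [chn_zero, wd_singleton]; exact hy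
  | succ c ih =>
    have ih' := ih (by omega)
    rw [chn_succ, wd_rep]
    have hk := ie_pos (wd g (chn g c ++ [edgeN V n c] ++ chn g c))
    obtain ⟨k, hk'⟩ := Nat.exists_eq_succ_of_ne_zero (Nat.pos_iff_ne_zero.1 hk)
    rw [hk']
    have hl := chn_loc hloc c
    refine hpow ?_ ?_ k
    · rw [wd_append, wd_append, wd_singleton]
      exact (hl.mul (hloc _)).mul hl
    · rw [wd_append, wd_append, wd_singleton]
      exact hcomp (hl.mul (hloc _)) hl (hcomp hl (hloc _) ih' (he c (by omega))) ih'

end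

/-! ### Pieces -/

theorem pv_append {T' : Type} (e f : NB Q) (x : T' → Bool) (L L' : List (NB Q ⊕ T')) :
    pv e f x (L ++ L') = pv e f x L * pv e f x L' := by
  unfold pv
  rw [List.map_append, List.prod_append]

theorem pv_inl {T' : Type} (e f : NB Q) (x : T' → Bool) (b : NB Q) :
    pv e f x [Sum.inl b] = b := by
  simp [pv]

theorem pv_pieces {α T' : Type} (g : α → NB Q) (L0 L1 : List α) (x : T' → Bool)
    (C : List (α ⊕ T')) :
    pv (wd g L0) (wd g L1) x (C.map (Sum.map g id)) = wd g (expand L0 L1 x C) := by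
  induction C with
  | nil => rfl
  | cons p C ih =>
    have h1 : expand L0 L1 x (p :: C) = expand L0 L1 x [p] ++ expand L0 L1 x C :=
      Box.expand_append L0 L1 x [p] C
    have h2 : (p :: C).map (Sum.map g id) = [Sum.map g id p] ++ C.map (Sum.map g id) := rfl
    rw [h1, h2, pv_append, wd_append, ih]
    congr 1
    cases p with
    | inl s =>
      show pv _ _ x [Sum.inl (g s)] = _
      rw [pv_inl]
      simp only [expand, List.flatMap_cons, Sum.elim_inl, List.flatMap_nil, List.append_nil]
      exact (wd_singleton g s).symm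
    | inr t =>
      simp only [pv, expand, Sum.map_inr, id_eq, List.map_cons, List.map_nil, Sum.elim_inr,
        List.prod_cons, List.prod_nil, mul_one, List.flatMap_cons, List.flatMap_nil,
        List.append_nil]
      split_ifs <;> rfl

theorem isT_map {α A T' : Type} (g : α → A) (t : T') (p : α ⊕ T') :
    isT t (Sum.map g id p) = isT t p := by
  rw [Bool.eq_iff_iff, Box.isT_iff, Box.isT_iff]
  cases p with
  | inl s => simp
  | inr t' => simp

theorem countP_pieces {α A T' : Type} (g : α → A) (C : List (α ⊕ T')) (t : T') :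
    (C.map (Sum.map g id)).countP (isT t) = C.countP (isT t) := by
  rw [List.countP_map]
  apply List.countP_congr
  intro p _
  show isT t (Sum.map g id p) = true ↔ _
  rw [isT_map]

/-! ### Selection -/

theorem select {m : ℕ} (hm : 0 < m) (l : ℕ → ℕ) (u : ℕ → ℕ)
    (h : ∀ c, c < m → 2 * u (c + 1) + l c ≤ 2 * u c) : ∃ c, c < m ∧ m * l c ≤ 2 * u 0 := by
  have h1 : ∀ k, k ≤ m → 2 * u k + ∑ c ∈ Finset.range k, l c ≤ 2 * u 0 := by
    intro k
    induction k with
    | zero => intro _; simp
    | succ k ih =>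
      intro hk
      have h2 := ih (by omega)
      have h3 := h k (by omega)
      rw [Finset.sum_range_succ]
      omega
  have h2 := h1 m le_rfl
  by_contra hcon
  push Not at hcon
  have h3 : ∑ c ∈ Finset.range m, (2 * u 0 + 1) ≤ ∑ c ∈ Finset.range m, m * l c :=
    Finset.sum_le_sum fun c hc => hcon c (Finset.mem_range.1 hc)
  rw [← Finset.mul_sum, Finset.sum_const, Finset.card_range, smul_eq_mul] at h3
  have h4 := Nat.le_of_mul_le_mul_left h3 hm
  omega

/-! ### Powers -/

theorem pow_idem3 {x : NB Q} {k : ℕ} (hk : 0 < k) (h : x ^ k * x ^ k = x ^ k) :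
    x ^ k * x * x ^ (2 * k - 1) = x ^ k ∧ x ^ (2 * k - 1) * x ^ k = x ^ (2 * k - 1) := by
  constructor
  · have h1 : x ^ k * x * x ^ (2 * k - 1) = x ^ k * x ^ k * x ^ k := by
      rw [← pow_succ, ← pow_add, ← pow_add, ← pow_add]
      congr 1
      omega
    rw [h1, h, h]
  · have h1 : x ^ (2 * k - 1) * x ^ k = x ^ k * x ^ k * x ^ (k - 1) := by
      rw [← pow_add, ← pow_add, ← pow_add]
      congr 1
      omega
    rw [h1, h, ← pow_add]
    congr 1
    omega

theorem acts_macro2 {V W : Type} (ι : V → W) (m : Sym V → List (Sym W))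
    (hm : ∀ (a : Sym V) (S : Set V), acts (m a) (ι '' S) = ι '' (a.act S)) (ws : List (Sym V)) :
    ∀ S : Set V, acts (ws.flatMap m) (ι '' S) = ι '' (acts ws S) := by
  induction ws with
  | nil => intro S; rfl
  | cons a ws ih =>
    intro S
    rw [List.flatMap_cons, Box.acts_append, hm, ih, Box.acts_cons]

theorem bits_id {V : Type} (t : Fin 3 × V) :
    bits (idSym V) t = decide (t.1 ≠ 0 ∧ t.1 ≠ 1) := Box.bits_idSym t

/-! ### The step -/

section

variable [Finite Q] {V : Type} {n : ℕ}

/-- A lost class of the chain consists of touched states. -/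
theorem lost_sub (hP : PtsFacts Q) {g : Sym (Ext V n) → NB Q}
    (hid : g (idSym (Ext V n)) * g (idSym (Ext V n)) = g (idSym (Ext V n)))
    (hloc : ∀ s, Lc (g (idSym (Ext V n))) (g s)) (U : Set (Bool × Set Q)) (m : ℕ)
    (hU : ∀ c, c < m → ∀ d y, Pt (g (idSym (Ext V n))) d y →
      (d, cl (g (idSym (Ext V n))) d y) ∉ U → X (g (idSym (Ext V n))) (g (edgeN V n c)) d y y)
    (c : ℕ) (hc : c < m) :
    Lost (wd g (chn g c)) (wd g (chn g (c + 1))) ⊆
      UC (g (idSym (Ext V n))) U (wd g (chn g c)) := by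
  rintro ⟨d, κ⟩ ⟨x, hx, hκ, hlost⟩
  simp only at hx hκ hlost
  subst hκ
  refine ⟨⟨x, hx, rfl⟩, ?_⟩
  intro y hy hyE
  simp only at hy hyE ⊢
  by_contra hyU
  apply hlost
  have hl := chn_loc hloc c
  have he := chn_idem hid c
  have h1 : X (g (idSym (Ext V n))) (wd g (chn g (c + 1))) d y y :=
    pass_chn hP hid hloc hyE m (fun c' hc' => hU c' hc' d y hyE hyU) (c + 1) (by omega)
  have h2 := hP.env hl.1 hl.2 h1
  exact hP.invR he (chn_left hid c) (chn_right hid c)
    (hP.invL he (chn_left hid c) (chn_right hid c) hy.1 h2) hy.2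

end

/-- Row S. -/
theorem step (hP : ∀ (Q : Type) [Finite Q], PtsFacts Q) (hC : CountStmt) (hT : ToggleStmt) :
    StepStmt := by
  classical
  intro V _ s0 f0 n hn Q _ M hM a hNorm
  obtain ⟨hid, hl1, hl2, Act, hActc, hAct⟩ := hNorm
  set g := M.G with hg
  set E := g (idSym (Ext V n)) with hE
  have hloc : ∀ s, Lc E (g s) := fun s => ⟨hl1 s, hl2 s⟩
  -- touched classes
  set U : Set (Bool × Set Q) :=
    ⋃ i : Fin n, (Act (false, trkW V i) ∪ Act (true, trkP V i)) with hU
  have hUc : U.ncard ≤ n * (2 * a) := by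
    have h1 : U.ncard ≤ ∑ i : Fin n, (Act (false, trkW V i) ∪ Act (true, trkP V i)).ncard := by
      rw [hU]
      exact Set.ncard_iUnion_le_of_fintype _
    refine h1.trans ?_
    calc ∑ i : Fin n, (Act (false, trkW V i) ∪ Act (true, trkP V i)).ncard
        ≤ ∑ _i : Fin n, 2 * a := by
          apply Finset.sum_le_sum
          intro i _
          refine (Set.ncard_union_le _ _).trans ?_
          have h2 := hActc (false, trkW V i)
          have h3 := hActc (true, trkP V i)
          omega
      _ = n * (2 * a) := by simp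
  have hUpass : ∀ c, c < n * n → ∀ d y, Pt E d y → (d, cl E d y) ∉ U →
      X E (g (edgeN V n c)) d y y := by
    intro c _ d y hy hyU
    refine hAct (edgeN V n c) (fun _ => rfl) d y hy ?_ ?_
    · intro v hv hmem
      obtain ⟨i, rfl, _⟩ := Box.isW_iff.1 hv
      exact hyU (Set.mem_iUnion.2 ⟨i, Or.inl hmem⟩)
    · intro v hv hmem
      obtain ⟨i, rfl, _⟩ := Box.isP_iff.1 hv
      exact hyU (Set.mem_iUnion.2 ⟨i, Or.inr hmem⟩)
  -- the row with few losses
  obtain ⟨c, hc, hdrop⟩ := select (m := n * n) (Nat.mul_pos hn hn)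
    (fun c => (Lost (wd g (chn g c)) (wd g (chn g (c + 1)))).ncard)
    (fun c => (UC E U (wd g (chn g c))).ncard)
    (fun c hc => hC Q E _ _ U (chn_idem hid c) (chn_idem hid (c + 1)) (chn_left hid c)
      (chn_right hid c) (lost_sub (hP Q) hid hloc U (n * n) hUpass c hc))
  set L0 := chn g c with hL0
  set L1 := chn g (c + 1) with hL1
  set e := wd g L0 with hedef
  set f := wd g L1 with hfdef
  have hUC0 : (UC E U (wd g (chn g 0))).ncard ≤ U.ncard := by
    refine Set.ncard_le_ncard ?_ (Set.toFinite _)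
    rintro ⟨d, κ⟩ ⟨⟨x, hx, hκ⟩, h2⟩
    simp only at hx hκ h2
    rw [chn_zero, wd_singleton] at hx hκ
    have h3 : x ∈ κ := by rw [hκ]; exact ⟨hx, hx⟩
    have h4 := h2 x h3 hx
    rw [hκ]
    exact h4
  have hlost : n * (Lost e f).ncard ≤ 4 * a := by
    have h1 : n * (n * (Lost e f).ncard) ≤ n * (4 * a) := by
      calc n * (n * (Lost e f).ncard) = n * n * (Lost e f).ncard := by ring
        _ ≤ 2 * (UC E U (wd g (chn g 0))).ncard := hdrop
        _ ≤ 2 * (n * (2 * a)) := by omega
        _ = n * (4 * a) := by ring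
    exact Nat.le_of_mul_le_mul_left h1 hn
  -- the cells
  have hi : c / n < n := Nat.div_lt_of_lt_mul hc
  have hj : c % n < n := Nat.mod_lt _ hn
  have hcn : c / n * n + c % n = c := by
    have := Nat.div_add_mod c n
    rwa [Nat.mul_comm] at this
  set C : List (Sym (Ext V n) ⊕ (Fin 3 × V)) :=
    cellP ⟨c / n, hi⟩ ⟨c % n, hj⟩ Finset.univ.toList with hCdef
  have hcount : ∀ t, C.countP (isT t) = 1 := fun t =>
    Box.countP_isT_cellP _ _ _ (Finset.nodup_toList _)
      (fun v => Finset.mem_toList.2 (Finset.mem_univ v)) t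
  have hact : ∀ (s : Sym V) (A : Set V),
      acts (expand L0 L1 (bits s) C) (Sum.inl '' A) = Sum.inl '' (s.act A) := by
    intro s A
    apply Box.acts_cellP (P0 := fun i j => i.val * n + j.val < c)
      (P1 := fun i j => i.val * n + j.val < c + 1)
      (fun S => acts_chn g hn c S) (fun S => acts_chn g hn (c + 1) S)
    · simp only [hcn]; omega
    · simp only [hcn]; omega
    · intro v
      exact Finset.mem_toList.2 (Finset.mem_univ v)
  set w : Sym V → List (Sym (Ext V n)) := fun s => expand L0 L1 (bits s) C with hw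
  set w0 := w (idSym V) with hw0
  obtain ⟨k, hk, hidem⟩ := exists_pow_idem (wd g w0)
  obtain ⟨hk1, hk2⟩ := pow_idem3 hk hidem
  have hact0 : ∀ S : Set V, acts w0 (Sum.inl '' S) = Sum.inl '' S := by
    intro S
    have := hact (idSym V) S
    rw [Box.idSym_act] at this
    exact this
  set m : Sym V → List (Sym (Ext V n)) := fun s => rep w0 k ++ w s ++ rep w0 (2 * k - 1) with hm
  have hwm : ∀ s, wd g (m s) = wd g w0 ^ k * wd g (w s) * wd g w0 ^ (2 * k - 1) := by
    intro s
    show wd g (rep w0 k ++ w s ++ rep w0 (2 * k - 1)) = _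
    rw [wd_append, wd_append, wd_rep, wd_rep]
  have hwm0 : wd g (m (idSym V)) = wd g w0 ^ k := by
    rw [hwm]
    exact hk1
  have hactm : ∀ (s : Sym V) (S : Set V),
      acts (m s) (Sum.inl '' S) = (Sum.inl '' (s.act S) : Set (Ext V n)) := by
    intro s S
    show acts (rep w0 k ++ w s ++ rep w0 (2 * k - 1)) (Sum.inl '' S) = _
    rw [Box.acts_append, Box.acts_append, Box.acts_rep1 _ _ hact0]
    show acts (rep w0 (2 * k - 1)) (acts (expand L0 L1 (bits s) C) (Sum.inl '' S)) = _
    rw [hact, Box.acts_rep1 _ _ hact0]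
  -- the pieces
  set Lp : List (NB Q ⊕ (Fin 3 × V)) :=
    [Sum.inl (wd g w0 ^ k)] ++ C.map (Sum.map g id) ++ [Sum.inl (wd g w0 ^ (2 * k - 1))] with hLp
  have hLpval : ∀ s : Sym V, pv e f (bits s) Lp = wd g (m s) := by
    intro s
    rw [hLp, pv_append, pv_append, pv_inl, pv_inl, pv_pieces, hwm]
  have hLpcount : ∀ t, Lp.countP (isT t) = 1 := by
    intro t
    rw [hLp, List.countP_append, List.countP_append, countP_pieces, hcount]
    simp [isT]
  obtain ⟨Act', hAct'c, hAct'⟩ := hT Q (Fin 3 × V) e f Lp (bits (idSym V)) (chn_idem hid c)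
    (chn_idem hid (c + 1)) (chn_left hid c) (chn_right hid c) (by simp [hLp])
    (by rw [hLpval, hwm0]; exact hidem) (fun t _ => (hLpcount t).le)
  rw [hLpval, hwm0] at hAct'
  refine ⟨⟨fun s => wd g (m s), M.bl, M.br, M.start, M.fin⟩, 2 * (Lost e f).ncard,
    ⟨?_, ?_, ?_, fun t => Act' (if t.1 then 1 else 0, t.2), ?_, ?_⟩, ?_, ?_⟩
  · show wd g (m (idSym V)) * wd g (m (idSym V)) = wd g (m (idSym V))
    rw [hwm0]
    exact hidem
  · intro s
    show wd g (m (idSym V)) * wd g (m s) = wd g (m s)
    rw [hwm0, hwm, ← mul_assoc, ← mul_assoc, hidem]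
  · intro s
    show wd g (m s) * wd g (m (idSym V)) = wd g (m s)
    rw [hwm0, hwm, mul_assoc, hk2]
  · rintro ⟨b, v⟩
    apply hAct'c
    rw [bits_id]
    cases b <;> simp
  · intro s hs d x hx hsrc hdst
    simp only [hwm0] at hx hsrc hdst ⊢
    have h1 := hAct' (bits s) (by
      rintro ⟨i, v⟩ ht
      rw [bits_id] at ht
      have ht' := of_decide_eq_true ht
      simp only at ht'
      unfold bits
      simp only [ht'.1, ht'.2, if_false]
      exact hs v) d x hx (by
      rintro ⟨i, v⟩ ht hb
      rw [bits_id] at ht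
      have ht' := of_decide_eq_false ht
      simp only [not_and_or, not_not] at ht'
      rcases ht' with rfl | rfl
      · exact hsrc v (by simpa [bits] using hb)
      · exact hdst v (by simpa [bits] using hb))
    rw [hLpval] at h1
    exact h1
  · calc n * (2 * (Lost e f).ncard) = 2 * (n * (Lost e f).ncard) := by ring
      _ ≤ 2 * (4 * a) := by omega
      _ = 8 * a := by ring
  · intro ws
    have h1 : (BAut.mk (fun s => wd g (m s)) M.bl M.br M.start M.fin : BAut (Sym V) Q).Acc ws ↔
        M.Acc (ws.flatMap m) := by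
      have h2 : ((ws.flatMap m).map M.G).prod = (ws.map (fun s => wd g (m s))).prod :=
        wd_flatMap g ws m
      unfold BAut.Acc
      rw [h2]
    rw [h1, hM]
    have h3 : RLang (Sum.inl s0 : Ext V n) (Sum.inl f0) (ws.flatMap m) ↔ RLang s0 f0 ws := by
      unfold RLang
      rw [← Set.image_singleton, acts_macro2 Sum.inl m hactm]
      exact Sum.inl_injective.mem_set_image
    rw [h3]

end Vale.Agent.P343.H950
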